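import Vale.Agent.P281.H603.C.Change
import Vale.Agent.P281.H152.UC.OrbCmp
import Vale.Agent.P281.H349.UL.Alb0
import Vale.Agent.P281.H383.ULC.Core

/-!
# P281, project T-ULC (helper349), block A0C: `Alb0CStmt`
-/

open Set Filter Metric MeasureTheory Vale.Agent.P281 Vale.Agent.P281.H713 Vale.Agent.P272.K
open scoped Topology ContDiff Manifold ComplexConjugate NNReal

set_option linter.all false

noncomputable section

namespace Vale.Agent.P281.H349.ULC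

open Vale.Agent.P281.H64 (Mark Qf Qf_eq bil_eq linV linV_apply functional_eq)
open Vale.Agent.P281.H64.TK Vale.Agent.P281.H603.K Vale.Agent.P281.H864.K
open Vale.Agent.P281.H64.TU (TameIn KTame TameBoundStmt NormStmt)
open Vale.Agent.P281.H603.TE Vale.Agent.P281.H603.C
open Vale.Agent.P281.H125.Fib (IsCl D)
open Vale.Agent.P281.H969.K.FibN
open Vale.Agent.P281.H511.UL (IsAlb0 HasForms1 Alb0Stmt)
open Vale.Agent.P281.H383.ULC (Alb0CStmt)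

attribute [local instance] ccs

variable {p d : ℕ} {Z Y : Type} [TopologicalSpace Z] [T2Space Z] [ChartedSpace (Cm (p + d)) Z]
  [IsManifold 𝓘(ℂ, Cm (p + d)) ω Z] [TopologicalSpace Y] [T2Space Y] [ChartedSpace (Cm p) Y]
  [IsManifold 𝓘(ℂ, Cm p) ω Y] {f : Z → Y} {C : Ctx (p := p) (d := d) f} {m n g : ℕ}
  {B : Matrix (Fin n) (Fin n) ℝ}

/-- the closed 1-forms of the coverings of the fibre -/
theorem forms1C (hf : ContMDiff 𝓘(ℂ, Cm (p + d)) 𝓘(ℂ, Cm p) ω f)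
    (L : DLocC C m B g) {y : Y} (hy : y ∈ L.U) (F : Type)
    [TopologicalSpace F] [T2Space F] [ChartedSpace (Cm d) F] (i : F → Z)
    (hi : H511.Surf.IsFibre (Cm (p + d)) (Cm d) f y i) (hk : ∀ x, (i ⁻¹' {x}).encard ≤ m)
    (t₀ : F) : ∃ β : Z → EuclideanSpace ℂ (Fin g), L.IsLift (i t₀) β ∧
      ∀ η : F → (Cm d →L[ℂ] ℂ), IsCl η → ∃ l : EuclideanSpace ℂ (Fin g) →L[ℂ] ℂ,
        ∀ᶠ z in 𝓝 t₀, η z = J.dif (Cm d) (fun s => l (β (i s))) z := by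
  have ht := L.hT' hy.2
  have hqd := qd_of_model L.model ht
  have hFc : CompactSpace F := hi.compact
  have hFn : ConnectedSpace F := hi.connected
  have hFm : IsManifold 𝓘(ℂ, Cm d) ω F := hi.manifold
  have hri : range (L.q (L.χ y)) = f ⁻¹' {y} := by
    rw [range_of_model L.model ht, L.left_inv hy]
  set Q := L.q (L.χ y) with hQ
  have hib : ∀ x, i x ∈ f ⁻¹' {y} := fun x => hi.fibre x
  have hcov : IsCoveringMap fun x : F => (⟨i x, hib x⟩ : f ⁻¹' {y}) :=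
    isCovering hqd hi.hol hi.immersion hri hib
  have hfinite : ∀ b : f ⁻¹' {y}, ((fun x : F => (⟨i x, hib x⟩ : f ⁻¹' {y})) ⁻¹' {b}).Finite := by
    intro b
    have h1 : IsClosed ((fun x : F => (⟨i x, hib x⟩ : f ⁻¹' {y})) ⁻¹' {b}) :=
      isClosed_singleton.preimage hcov.continuous
    have h2 : DiscreteTopology ((fun x : F => (⟨i x, hib x⟩ : f ⁻¹' {y})) ⁻¹' {b}) :=
      (hcov b).discreteTopology_fiber
    exact h1.isCompact.finite ⟨h2⟩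
  have hQy : ∀ e, Q e ∈ f ⁻¹' {y} := by
    intro e
    rw [← hri]
    exact ⟨e, rfl⟩
  set S₂ := L.shK hy with hS₂
  -- the point of `E`
  obtain ⟨e₀, he₀⟩ : i t₀ ∈ range Q := by
    rw [hri]
    exact hib t₀
  obtain ⟨κ₀, j₀, z₀, hz₀, hκ₀⟩ := S₂.cover e₀
  have hz₀3 : z₀ ∈ ball (0 : Cm d) 3 := mem_ball_zero_iff.2 (by linarith)
  have hinvQ : ∀ (γ : L.Γ) e, Q (γ • e) = Q e := fun γ e => ((hqd.Qeq e (γ • e)).2 ⟨γ, rfl⟩).symm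
  have he₁ : Q (S₂.σ j₀ z₀) = i t₀ := by
    rw [← he₀, ← hκ₀]
    exact (hinvQ (κ₀ : L.Γ) _).symm
  -- the lift
  have hLP : LocallyPathConnectedSpace L.E := locPath (L.𝓕.at _ ht)
  have hw : Continuous fun e => (⟨Q e, hQy e⟩ : f ⁻¹' {y}) := hqd.Qcont.subtype_mk _
  obtain ⟨π, hcont, hπ', hπe, hcore⟩ := H603.TE.exists_lift (Γ := L.Γ) hcov hw
    (fun γ e => Subtype.ext (hinvQ γ e))
    (e₀ := S₂.σ j₀ z₀) (x₀ := t₀) (Subtype.ext he₁.symm) (hfinite _)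
  have hπ : ∀ e, i (π e) = Q e := fun e => congrArg Subtype.val (hπ' e)
  have hm : ((fun x : F => (⟨i x, hib x⟩ : f ⁻¹' {y})) ⁻¹'
      {⟨Q (S₂.σ j₀ z₀), hQy _⟩}).ncard ≤ m := by
    have h1 : ((fun x : F => (⟨i x, hib x⟩ : f ⁻¹' {y})) ⁻¹' {⟨Q (S₂.σ j₀ z₀), hQy _⟩}) =
        i ⁻¹' {Q (S₂.σ j₀ z₀)} := by
      ext x
      simp only [mem_preimage, mem_singleton_iff, Subtype.mk.injEq]
    have h2 := hk (Q (S₂.σ j₀ z₀))
    rw [h1]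
    have h3 : (i ⁻¹' {Q (S₂.σ j₀ z₀)}).Finite := h1 ▸ hfinite ⟨Q (S₂.σ j₀ z₀), hQy _⟩
    rw [← h3.cast_ncard_eq] at h2
    exact_mod_cast h2
  have hinv : ∀ (κ : core L.Γ m) e, π (κ • e) = π e := fun κ e => hcore m hm κ κ.2 e
  set i₀ := (idx (core L.Γ m) L.𝓕.N j₀).1 with hi₀
  set γ₀ : L.Γ := rep (core L.Γ m) (idx (core L.Γ m) L.𝓕.N j₀).2 with hγ₀
  have hσ : ∀ u, S₂.σ j₀ u = γ₀ • L.𝓕.σ i₀ (L.χ y) u := fun u => rfl
  have hQσ : ∀ j u, Q (S₂.σ j u) = Q (L.𝓕.σ (idx (core L.Γ m) L.𝓕.N j).1 (L.χ y) u) :=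
    fun j u => hinvQ (rep (core L.Γ m) (idx (core L.Γ m) L.𝓕.N j).2) _
  have hqm : ∀ j, ∀ z ∈ ball (0 : Cm d) 3, MDifferentiableAt 𝓘(ℂ, Cm d) 𝓘(ℂ, Cm (p + d))
      (fun u => Q (L.𝓕.σ (idx (core L.Γ m) L.𝓕.N j).1 (L.χ y) u)) z := fun j z hz =>
    (hqd.hol _ z hz).mdifferentiableAt (by simp)
  have hder : ∀ j, ∀ z ∈ ball (0 : Cm d) 3,
      MDifferentiableAt 𝓘(ℂ, Cm d) 𝓘(ℂ, Cm d) (fun u => π (S₂.σ j u)) z := by
    intro j z hz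
    refine mdiff_lift (n := p + d) (i := i)
      (w := fun u => Q (L.𝓕.σ (idx (core L.Γ m) L.𝓕.N j).1 (L.χ y) u))
      (hi.hol _) (hi.immersion _)
      (hcont.continuousAt.comp (S₂.map_nhds j z hz).le) (hqm j z hz) fun u => ?_
    show i (π (S₂.σ j u)) = _
    rw [hπ, hQσ]
  have hW : PiW S₂ π := ⟨hcont, hinv, hder⟩
  -- the coordinate
  have hfi : f (i t₀) = y := hi.fibre t₀
  have hx : f (i t₀) ∈ L.U := by rw [hfi]; exact hy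
  have hxz : L.q (L.χ (f (i t₀))) (L.𝓕.σ i₀ (L.χ (f (i t₀))) z₀) = i t₀ := by
    rw [hfi, ← he₁]
    exact (hQσ j₀ z₀).symm
  obtain ⟨ζ, hζ, hζ0⟩ := L.exists_co hx hz₀3 hxz
  refine ⟨_, DLocC.exists_lift' hx γ₀ hζ, fun η hη => ?_⟩
  obtain ⟨G, c, hadd, hG⟩ := hW.exists_add hη
  have hC2 := H603.C.c2 S₂
  obtain ⟨s, b', hs⟩ := exists_lin (L.bas _ hy.2) hC2 hadd
  refine ⟨UL.fnl s, ?_⟩
  -- `ζ ∘ i`
  have hζi : ContMDiffAt 𝓘(ℂ, Cm d) 𝓘(ℂ, Cm d) ω (fun z => ζ (i z)) t₀ :=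
    ContMDiffAt.comp (g := ζ) (f := i) t₀ hζ.1 (hi.hol t₀)
  have hζi' : ∀ᶠ z in 𝓝 t₀, ContMDiffAt 𝓘(ℂ, Cm d) 𝓘(ℂ, Cm d) ω (fun z => ζ (i z)) z :=
    (contMDiffAt_iff_contMDiffAt_nhds (by simp)).1 hζi
  have hball : ∀ᶠ z in 𝓝 t₀, ζ (i z) ∈ ball (0 : Cm d) 3 :=
    hζi.continuousAt.eventually (isOpen_ball.mem_nhds hζ.2.1)
  have hco : ∀ᶠ z in 𝓝 t₀, Q (S₂.σ j₀ (ζ (i z))) = i z := by
    filter_upwards [hi.hol.continuous.continuousAt.eventually hζ.2.2] with z hz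
    rw [hQσ]
    have h1 : f (i z) = y := hi.fibre z
    rw [h1] at hz
    exact hz
  -- `π ∘ σ ∘ ζ ∘ i = id`
  have hid : ∀ᶠ z in 𝓝 t₀, π (S₂.σ j₀ (ζ (i z))) = z := by
    obtain ⟨O, hO, hOinj⟩ : ∃ O ∈ 𝓝 t₀, InjOn i O := by
      obtain ⟨O, hO, htO, hOi⟩ := hcov.isLocalHomeomorph.isLocallyInjective t₀
      exact ⟨O, hO.mem_nhds htO, fun a ha b hb hab => hOi ha hb (Subtype.ext hab)⟩
    have h1 : ContinuousAt (fun z => π (S₂.σ j₀ (ζ (i z)))) t₀ := by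
      refine hcont.continuousAt.comp ?_
      have h2 : ContinuousAt (S₂.σ j₀) (ζ (i t₀)) := (S₂.map_nhds j₀ _ hζ.2.1).le
      exact ContinuousAt.comp (g := S₂.σ j₀) (f := fun z => ζ (i z)) h2 hζi.continuousAt
    have h2 : π (S₂.σ j₀ (ζ (i t₀))) = t₀ := by rw [hζ0]; exact hπe
    have h3 : ∀ᶠ z in 𝓝 t₀, π (S₂.σ j₀ (ζ (i z))) ∈ O := h1.eventually (by
      show ∀ᶠ z in 𝓝 (π (S₂.σ j₀ (ζ (i t₀)))), z ∈ O
      rw [h2]; exact hO)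
    filter_upwards [h3, hO, hco] with z h4 h5 h6
    exact hOinj h4 h5 (by rw [hπ]; exact h6)
  filter_upwards [hζi', hball, hid.eventually_nhds] with z h1 h2 h3
  set u := ζ (i z) with hu
  have hπu : π (S₂.σ j₀ u) = z := h3.self_of_nhds
  have hζd : HasMFDerivAt 𝓘(ℂ, Cm d) 𝓘(ℂ, Cm d) (fun z => ζ (i z)) z
      (mfderiv 𝓘(ℂ, Cm d) 𝓘(ℂ, Cm d) (fun z => ζ (i z)) z) :=
    (h1.mdifferentiableAt (by simp)).hasMFDerivAt
  have hπd : HasMFDerivAt 𝓘(ℂ, Cm d) 𝓘(ℂ, Cm d) (fun v => π (S₂.σ j₀ v)) (ζ (i z))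
      (D S₂ π j₀ (ζ (i z))) := (hder j₀ _ h2).hasMFDerivAt
  have hcomp := HasMFDerivAt.comp z hπd hζd
  have hidd : HasMFDerivAt 𝓘(ℂ, Cm d) 𝓘(ℂ, Cm d) ((fun v => π (S₂.σ j₀ v)) ∘ fun z => ζ (i z)) z
      (ContinuousLinearMap.id ℂ (TangentSpace 𝓘(ℂ, Cm d) z)) :=
    (hasMFDerivAt_id z).congr_of_eventuallyEq h3
  have h5 : ∀ ξ : Cm d, D S₂ π j₀ (ζ (i z))
      (mfderiv 𝓘(ℂ, Cm d) 𝓘(ℂ, Cm d) (fun z => ζ (i z)) z ξ) = ξ := fun ξ =>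
    congrArg (fun A : Cm d →L[ℂ] Cm d => A ξ)
      (hasMFDerivAt_unique hcomp hidd)
  have hGd : HasMFDerivAt 𝓘(ℂ, Cm d) 𝓘(ℂ, ℂ) (fun v => G (S₂.σ j₀ v)) (ζ (i z))
      ((η (π (S₂.σ j₀ (ζ (i z))))).comp (D S₂ π j₀ (ζ (i z)))) := (hG j₀ _ h2).hasMFDerivAt
  have hc2 := HasMFDerivAt.comp z hGd hζd
  have hfun : (fun s' => UL.fnl s ((fun z => (WithLp.toLp 2 (L.F (L.χ (f z))
      (γ₀ • L.𝓕.σ i₀ (L.χ (f z)) (ζ z))) : EuclideanSpace ℂ (Fin g))) (i s'))) =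
      fun s' => ((fun v => G (S₂.σ j₀ v)) ∘ fun z => ζ (i z)) s' - b' := by
    funext s'
    have h6 : f (i s') = y := hi.fibre s'
    show UL.fnl s (WithLp.toLp 2 (L.F (L.χ (f (i s'))) (γ₀ • L.𝓕.σ i₀ (L.χ (f (i s'))) (ζ (i s'))))) =
      G (S₂.σ j₀ (ζ (i s'))) - b'
    rw [h6, UL.fnl_apply, hs, hσ]
    ring
  have h7 := (hc2.sub (hasMFDerivAt_const (I := 𝓘(ℂ, Cm d)) (I' := 𝓘(ℂ, ℂ)) b' z)).mfderiv
  show η z = mfderiv 𝓘(ℂ, Cm d) 𝓘(ℂ, ℂ) _ z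
  rw [hfun]
  ext1 ξ
  have h9 := congrArg (fun A : Cm d →L[ℂ] ℂ => A ξ) h7
  refine Eq.trans ?_ (Eq.trans h9 (sub_zero (η (π (S₂.σ j₀ (ζ (i z)))) (D S₂ π j₀ (ζ (i z))
    (mfderiv 𝓘(ℂ, Cm d) 𝓘(ℂ, Cm d) (fun z => ζ (i z)) z ξ))))).symm
  rw [h5 ξ]
  have h8 : π (S₂.σ j₀ (ζ (i z))) = z := hπu
  rw [h8]

/-- the bound for the first derivatives -/
theorem boundL (I : Inputs) (hd : 0 < d) (hn : n = 2 * g) {r K : ℝ} (hr : 0 < r) {A : ℝ}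
    (hA : ∀ (L : DLocC C m B g) (t : Cm p) (ht : t ∈ L.T') (q : Cm d → Z) (q' : Cm d → L.E)
      (v₀ : Cm d), IsPolydisc (Cm (p + d)) f q v₀ r → CTame C.u C.w K q v₀ r →
      (∀ v ∈ ball v₀ r, L.q t (q' v) = q v) → PolyIn (L.𝓕.at t (L.hT' ht)) q' v₀ r →
      ∀ (π : (Fin n → ℝ) ≃L[ℝ] EuclideanSpace ℂ (Fin g)), (∀ x, π x = perMap L.M (L.c t) x) →
      ∀ G : EuclideanSpace ℂ (Fin g) ≃L[ℂ] EuclideanSpace ℂ (Fin g),
        (∀ x x', (inner ℂ (G (π x)) (G (π x'))).im = Qf B x x') →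
        ∀ v ∈ ball v₀ (r / 2),
          ‖fderiv ℂ (fun u => G (WithLp.toLp 2 (L.F t (q' u)))) v‖ ≤ A)
    (L : DLocC C m B g) (D : (Fin n → ℝ) ≃L[ℝ] EuclideanSpace ℂ (Fin g)) {q : Cm d → Z}
    {v₀ : Cm d} (hq : IsPolydisc (Cm (p + d)) f q v₀ r) (hT : CTame C.u C.w K q v₀ r)
    (hy : f (q v₀) ∈ L.U) :
    ∃ h : (Fin d → ℂ) → EuclideanSpace ℂ (Fin g), DifferentiableOn ℂ h (ball v₀ r) ∧
      (∃ β : Z → EuclideanSpace ℂ (Fin g), L.IsLift (q v₀) β ∧ ∀ᶠ v in 𝓝 v₀, β (q v) = h v) ∧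
      ∀ G : EuclideanSpace ℂ (Fin g) ≃L[ℂ] EuclideanSpace ℂ (Fin g),
        (∀ x x', (inner ℂ (G (L.π D (f (q v₀)) x)) (G (L.π D (f (q v₀)) x'))).im = Qf B x x') →
        ∀ v ∈ ball v₀ (r / 2), ‖fderiv ℂ (fun u => G (h u)) v‖ ≤ A := by
  obtain ⟨q', hqq, hpoly⟩ := lift_polyM L.model hy.1 (L.hT' hy.2) hq rfl hr
  set y := f (q v₀) with hydef
  set t := L.χ y with htdef
  have ht := L.hT' hy.2
  set h : Cm d → EuclideanSpace ℂ (Fin g) := fun v => WithLp.toLp 2 (L.F t (q' v)) with hh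
  have hdiff : DifferentiableOn ℂ h (ball v₀ r) := by
    intro v hv
    obtain ⟨γ, i, z, hz, he⟩ := (L.sh hy).cover (q' v)
    have hz3 := Sh.mem3 hz
    obtain ⟨θ, k1, k2, k3⟩ := hpoly.hol v hv i z hz3 γ he.symm
    have h2 : DifferentiableAt ℂ (fun u => (WithLp.toLp 2
        (L.F t (γ • L.𝓕.σ i t (θ u))) : EuclideanSpace ℂ (Fin g))) v :=
      DifferentiableAt.comp (g := fun u => (WithLp.toLp 2
        (L.F t (γ • L.𝓕.σ i t u)) : EuclideanSpace ℂ (Fin g))) (f := θ) v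
        (by rw [k2]; exact DLocC.differentiableAt_slice hy γ i hz3) k1.differentiableAt
    refine (h2.congr_of_eventuallyEq ?_).differentiableWithinAt
    filter_upwards [k3] with u hu
    rw [hh]
    simp only
    rw [hu]
    rfl
  refine ⟨h, hdiff, ?_, ?_⟩
  · -- the lift
    have hv₀ : v₀ ∈ ball v₀ r := mem_ball_self hr
    obtain ⟨γ, i, z, hz, he⟩ := (L.sh hy).cover (q' v₀)
    have hz3 := Sh.mem3 hz
    obtain ⟨θ, k1, k2, k3⟩ := hpoly.hol v₀ hv₀ i z hz3 γ he.symm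
    have hxz : L.q (L.χ (f (q v₀))) (L.𝓕.σ i (L.χ (f (q v₀))) z) = q v₀ := by
      rw [← L.q_smul hy γ]
      have h1 := hqq v₀ hv₀
      rw [← he] at h1
      exact h1
    obtain ⟨ζ, hco, hζz⟩ := L.exists_co hy hz3 hxz
    refine ⟨_, DLocC.exists_lift' hy γ hco, ?_⟩
    have hqc : ContinuousAt q v₀ := (hq.1 v₀ hv₀).continuousAt
    have e1 : ∀ᶠ v in 𝓝 v₀, θ v ∈ ball (0 : Cm d) 3 := k1.continuousAt.eventually (by
      show ∀ᶠ u in 𝓝 (θ v₀), u ∈ ball (0 : Cm d) 3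
      rw [k2]
      exact isOpen_ball.mem_nhds hz3)
    have e2 : ∀ᶠ v in 𝓝 v₀, ζ (q v) ∈ ball (0 : Cm d) 3 :=
      hqc.eventually (hco.1.continuousAt.eventually (isOpen_ball.mem_nhds hco.2.1))
    filter_upwards [e1, e2, k3, hqc.eventually hco.2.2, isOpen_ball.mem_nhds hv₀]
      with v a1 a2 a3 a4 a5
    have hfv : f (q v) = y := hq.2.2 v a5
    rw [hfv] at a4
    have a3' : q' v = γ • L.𝓕.σ i t (θ v) := a3
    have a6 : θ v = ζ (q v) := by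
      refine DLocC.eq_of_q hy (γ := γ) (i := i) a1 a2 ?_
      rw [a4, ← hqq v a5, a3']
    show (WithLp.toLp 2 (L.F (L.χ (f (q v))) (γ • L.𝓕.σ i (L.χ (f (q v))) (ζ (q v)))) :
      EuclideanSpace ℂ (Fin g)) = h v
    rw [hfv, ← a6, hh]
    simp only
    rw [a3']
  · intro G hG v hv
    exact hA L t hy.2 q q' v₀ hq hT hqq hpoly (L.π D y) (DLocC.π_spec I.f2 hd hn D hy) G hG v hv

/-- **change** -/
theorem changeL (I : Inputs) (hd : 0 < d) (hn : n = 2 * g) (hC : C.Ok)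
    (L L' : DLocC C m B g)
    (D D' : (Fin n → ℝ) ≃L[ℝ] EuclideanSpace ℂ (Fin g)) {x : Z} (hx : f x ∈ L.U)
    (hx' : f x ∈ L'.U) {β β' : Z → EuclideanSpace ℂ (Fin g)} (hβ : L.IsLift x β)
    (hβ' : L'.IsLift x β') :
    ∃ (G : EuclideanSpace ℂ (Fin g) ≃L[ℂ] EuclideanSpace ℂ (Fin g)) (b : EuclideanSpace ℂ (Fin g)),
      IsPeriodChange (Qf B) (L.π D (f x)) (L'.π D' (f x)) G ∧
        ∀ᶠ z in 𝓝 x, f z = f x → β' z = G (β z) + b := by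
  obtain ⟨-, γ, i, ζ, ⟨h1, h2, h3⟩, h4⟩ := hβ
  obtain ⟨-, γ', i', ζ', ⟨h1', h2', h3'⟩, h4'⟩ := hβ'
  set y := f x with hy
  have ht := L.hT' hx.2
  have ht' := L'.hT' hx'.2
  set t := L.χ y with htd
  set t' := L'.χ y with htd'
  obtain ⟨τ, ρ, hq, hc, -⟩ := compareC L.model L'.model ht ht'
    (by rw [htd, htd', L.left_inv hx, L'.left_inv hx']) m
  -- the points over `x`
  have k3 := h3.self_of_nhds
  have k3' := h3'.self_of_nhds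
  have k4 : L'.q t' (τ (γ • L.𝓕.σ i t (ζ x))) = L'.q t' (γ' • L'.𝓕.σ i' t' (ζ' x)) := by
    rw [hq, L.q_smul hx, L'.q_smul hx']
    exact k3.trans k3'.symm
  obtain ⟨δ, hδ⟩ := (L'.model.eq _ ht' _ _).1 k4
  set τ' := τ.trans (Homeomorph.smul δ) with hτ'
  have hq' : ∀ e, L'.q t' (τ' e) = L.q t e := fun e => (L'.q_smul hx' δ _).trans (hq e)
  obtain ⟨G, b, hG, hGF⟩ := DLocC.change I hd hn hC L L' D D' hx hx' (τ := τ')
    (ρ := ρ.trans (MulAut.conj δ)) (hc.smul δ).eqv hq'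
  refine ⟨G, b, hG, ?_⟩
  have hτx : τ' (γ • L.𝓕.σ i t (ζ x)) = γ' • L'.𝓕.σ i' t' (ζ' x) := hδ
  -- continuity along the fibre
  have hcont : ContinuousAt (fun z => τ' (γ • L.𝓕.σ i t (ζ z))) x := by
    refine τ'.continuous.continuousAt.comp ?_
    refine (continuous_const_smul γ).continuousAt.comp ?_
    exact ContinuousAt.comp (g := L.𝓕.σ i t) (f := ζ) (Sh.contAt (L.sh hx) i h2) h1.continuousAt
  have hopen : (fun u => γ' • L'.𝓕.σ i' t' u) '' ball (0 : Cm d) 3 ∈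
      𝓝 (τ' (γ • L.𝓕.σ i t (ζ x))) := by
    rw [hτx]
    exact (Sh.isOpen_image_smul (L'.sh hx') γ' i' isOpen_ball (Subset.refl _)).mem_nhds
      ⟨_, h2', rfl⟩
  have e1 := hcont.eventually hopen
  have e2 : ∀ᶠ z in 𝓝 x, ζ' z ∈ ball (0 : Cm d) 3 :=
    h1'.continuousAt.eventually (isOpen_ball.mem_nhds h2')
  filter_upwards [h3, h4, h3', h4', e1, e2] with z a3 a4 a3' a4' a5 a6 hz
  rw [hz] at a3 a4 a3' a4'
  obtain ⟨u, hu, hue⟩ := a5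
  have hue' : γ' • L'.𝓕.σ i' t' u = τ' (γ • L.𝓕.σ i t (ζ z)) := hue
  have a7 : L'.q t' (γ' • L'.𝓕.σ i' t' u) = L'.q t' (L'.𝓕.σ i' t' (ζ' z)) := by
    rw [hue', hq', L.q_smul hx]
    exact a3.trans a3'.symm
  have a8 : u = ζ' z := DLocC.eq_of_q hx' (γ := γ') (i := i') hu a6 a7
  rw [a4, a4']
  have h5 := hGF (γ • L.𝓕.σ i t (ζ z))
  have h6 : τ' (γ • L.𝓕.σ i t (ζ z)) = γ' • L'.𝓕.σ i' t' (ζ' z) := by rw [← hue', a8]
  exact (congrArg (fun e => (WithLp.toLp 2 (L'.F t' e) : EuclideanSpace ℂ (Fin g))) h6).symm.trans h5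

/-- **A0C** -/
theorem alb0C (I : Inputs) (hD : DGlobCStmt) (hBC : BoundCStmt) : Alb0CStmt := by
  intro p d m Z Y _ _ _ _ _ _ _ _ _ f C S S₁ hd hC hG hne
  obtain ⟨n, g, hn, B, hL⟩ := hD p d m Z Y f C S S₁ hd hC hG hne
  choose L h1 h2 h3 using fun a : {y // y ∉ S} => hL a.1 a.2
  have h4 : ∀ a, a.1 ∈ (L a).U := fun a => ⟨h1 a, h2 a⟩
  choose hB D hD' using fun a => (L a).F2_at I.f2 hd hn (h2 a)
  have hSU : ∀ a y, y ∈ (L a).U → y ∉ S := by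
    intro a y hy
    have h5 := h3 a _ hy.2
    rwa [(L a).left_inv hy] at h5
  refine ⟨g, n, Qf B, {y // y ∉ S}, fun a => (L a).U, fun a => (L a).π (D a),
    fun a x β => (L a).IsLift x β, ?_, ?_⟩
  · constructor
    · constructor
      · intro y
        constructor
        · intro hy
          exact ⟨⟨y, hy⟩, h4 ⟨y, hy⟩⟩
        · rintro ⟨a, ha⟩
          exact hSU a y ha
      · exact fun a => (L a).isOpen_U
      · exact fun a x y hy => DLocC.hol_π I.f2 hd hn (D a) x hy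
      · exact fun a y hy => DLocC.polarized I.f2 hd hn (D a) hy
    · intro x hx
      exact DLocC.coord (L := L ⟨f x, hx⟩) hC.hf (h4 ⟨f x, hx⟩)
    · exact fun a x β hβ => hβ.1
    · exact fun a x hx => DLocC.exists_isLift hx
    · exact fun a x β hβ => DLocC.IsLift.hol hC.hf hβ
    · exact fun a x β hβ => DLocC.IsLift.near hC.hf hβ
    · exact fun a x β hβ l hl => H303.UC.full hβ l hl
    · intro r K hr hK
      obtain ⟨A, hA⟩ := hBC p d m n g Z Y f C B r K hd hn hC hr hK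
      exact ⟨A, fun a q v₀ hq hT hy => boundL I hd hn hr hA (L a) (D a) hq hT hy⟩
    · intro a b x hx hx' β β' hβ hβ'
      exact changeL I hd hn hC (L a) (L b) (D a) (D b) hx hx' hβ hβ'
  · intro y hy F _ _ _ i hi hk a ha t
    obtain ⟨β, hβ, h5⟩ := forms1C hC.hf (L a) ha F i hi hk t
    exact ⟨β, hβ, h5⟩

end Vale.Agent.P281.H349.ULC
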